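import Mathlib

/-!
P022D: modules over truncated polynomial rings. Freeness over a subring forces freeness.
-/

namespace Vale.Agent.P022D.LU

open Module

variable {F N : Type*} [CommRing F] [AddCommGroup N] [Module F N]

/-- `N` is flat over `F[z]/z^n` relative to `F` (free if `F` is a field) -/
def FreeT (z : End F N) (n : ℕ) : Prop := z ^ n = 0 ∧ ∀ v, z v = 0 → ∃ u, (z ^ (n - 1)) u = v

theorem pow_app (z : End F N) (i j : ℕ) (v : N) : (z ^ i) ((z ^ j) v) = (z ^ (i + j)) v := by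
  rw [pow_add, End.mul_apply]

/-- all kernels are images -/
theorem FreeT.ker_pow {z : End F N} {n : ℕ} (h : FreeT z n) :
    ∀ i ≤ n, ∀ v, (z ^ i) v = 0 → ∃ u, (z ^ (n - i)) u = v := by
  intro i
  induction i with
  | zero => exact fun _ v hv => ⟨0, by simpa using hv.symm⟩
  | succ i ih =>
    intro hi v hv
    obtain ⟨u, hu⟩ := h.2 ((z ^ i) v) (by rwa [pow_succ', End.mul_apply] at hv)
    obtain ⟨u', hu'⟩ := ih (by omega) (v - (z ^ (n - (i + 1))) u) (by
      rw [map_sub, pow_app, show i + (n - (i + 1)) = n - 1 by omega, hu, sub_self])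
    refine ⟨u + z u', ?_⟩
    rw [map_add, ← End.mul_apply, ← pow_succ, show n - (i + 1) + 1 = n - i by omega, hu']
    abel

/-- the socle form -/
theorem FreeT.soc {z : End F N} {n : ℕ} (h : FreeT z n) (hn : 1 ≤ n) (v : N)
    (hv : (z ^ (n - 1)) v = 0) : ∃ u, z u = v := by
  simpa [show n - (n - 1) = 1 by omega] using h.ker_pow (n - 1) (by omega) v hv

theorem freeT_of_soc {z : End F N} {n : ℕ} (h0 : z ^ n = 0)
    (h : ∀ v, (z ^ (n - 1)) v = 0 → ∃ u, z u = v) : FreeT z n := by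
  refine ⟨h0, fun v hv => ?_⟩
  have key : ∀ i ≤ n - 1, ∃ u, (z ^ i) u = v := by
    intro i
    induction i with
    | zero => exact fun _ => ⟨v, rfl⟩
    | succ i ih =>
      intro hi
      obtain ⟨u, hu⟩ := ih (by omega)
      obtain ⟨u', hu'⟩ := h u (by
        rw [show n - 1 = n - 1 - (i + 1) + 1 + i by omega, ← pow_app, hu, pow_succ, End.mul_apply,
          hv, map_zero])
      exact ⟨u', by rw [pow_succ, End.mul_apply, hu', hu]⟩
  exact key _ le_rfl

/-- changing the variable by a unit -/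
theorem FreeT.unit {z e : End F N} {n : ℕ} (h : FreeT (e * z) n) (he : IsUnit e)
    (hc : Commute e z) : FreeT z n := by
  refine ⟨?_, fun v hv => ?_⟩
  · have := h.1
    rwa [hc.mul_pow, (he.pow n).mul_right_eq_zero] at this
  · obtain ⟨u, hu⟩ := h.2 v (by rw [End.mul_apply, hv, map_zero])
    rw [hc.mul_pow, (hc.pow_pow _ _).eq, End.mul_apply] at hu
    exact ⟨_, hu⟩

/-- Lemma U -/
theorem FreeT.root {z : End F N} {k p : ℕ} (hk : 1 ≤ k) (hp : 2 ≤ p) (h : FreeT (z ^ k) p) :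
    FreeT z (k * p) := by
  obtain ⟨k, rfl⟩ : ∃ j, k = j + 1 := ⟨k - 1, by omega⟩
  obtain ⟨p, rfl⟩ : ∃ j, p = j + 2 := ⟨p - 2, by omega⟩
  refine ⟨by rw [pow_mul, h.1], fun v hv => ?_⟩
  obtain ⟨u, hu⟩ := h.2 v (by rw [pow_succ, End.mul_apply, hv, map_zero])
  rw [← pow_mul, show p + 2 - 1 = p + 1 from rfl] at hu
  obtain ⟨u', hu'⟩ := h.2 ((z ^ ((k + 1) * p + 1)) u) (by
    rw [pow_app, show k + 1 + ((k + 1) * p + 1) = 1 + (k + 1) * (p + 1) by ring, ← pow_app, hu,
      pow_one, hv])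
  rw [← pow_mul, show p + 2 - 1 = p + 1 from rfl] at hu'
  refine ⟨u', ?_⟩
  rw [show (k + 1) * (p + 2) - 1 = k + (k + 1) * (p + 1) by
      rw [show (k + 1) * (p + 2) = k + (k + 1) * (p + 1) + 1 by ring]; rfl,
    ← pow_app, hu', pow_app, show k + ((k + 1) * p + 1) = (k + 1) * (p + 1) by ring, hu]

/-- Lemma U, inert form -/
theorem FreeT.inert {z e : End F N} {a b : ℕ} (ha : 1 ≤ a) (he : IsUnit e) (hc : Commute e z)
    (h : FreeT (e * z ^ 2 ^ b) (2 ^ a)) : FreeT z (2 ^ (a + b)) := by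
  rw [add_comm, pow_add]
  exact (h.unit he (hc.pow_right _)).root Nat.one_le_two_pow
    (le_trans (by norm_num) (Nat.pow_le_pow_right two_pos ha))

/-- Lemma U, split form: `N` is `N₀[y]/y^n` through `ι`, the constant term `π` and one more
coefficient `c` -/
theorem FreeT.split {N₀ : Type*} [AddCommGroup N₀] [Module F N₀] (h2 : (2 : F) = 0) {a : ℕ}
    {z y : End F N} {z₀ : End F N₀} (hc : Commute z y) (hy : y ^ 2 ^ (a + 1) = 0)
    (hz : z₀ ^ 2 ^ (a + 1) = 0) (ι : N₀ →ₗ[F] N) (π c : N →ₗ[F] N₀) (hι : ∀ v, z (ι v) = ι (z₀ v))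
    (hπ : ∀ v, π (z v) = z₀ (π v)) (hπy : ∀ v, π (y v) = 0) (hπι : ∀ v, π (ι v) = v)
    (hcz : ∀ v, c (z v) = z₀ (c v)) (hcι : ∀ v, c ((y ^ (2 ^ (a + 1) - 2)) (ι v)) = v)
    (h : FreeT ((1 + z) * (1 + y) ^ 2 - 1) (2 ^ (a + 1))) : FreeT z₀ (2 ^ (a + 1)) := by
  have t2 : (2 : End F N) = 0 := by
    rw [← one_add_one_eq_two, ← two_smul F (1 : End F N), h2, zero_smul]
  have e : (1 + z) * (1 + y) ^ 2 - 1 = z + (1 + z) * y ^ 2 := by
    rw [sq, show (1 + y) * (1 + y) = 1 + 2 * y + y ^ 2 by noncomm_ring, t2]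
    noncomm_ring
  rw [e] at h
  have c1 : Commute (1 + z) y := (Commute.one_left y).add_left hc
  have c2 : Commute z (1 + z) := (Commute.one_right z).add_right (Commute.refl z)
  generalize 1 + z = s at h c1 c2 e
  have c3 : Commute z (s * y ^ 2) := c2.mul_right (hc.pow_right 2)
  have c4 : (s * y ^ 2) ^ 2 ^ a = 0 := by
    rw [(c1.pow_right 2).mul_pow, ← pow_mul, ← pow_succ', hy, mul_zero]
  have c5 : ∀ j, (z + s * y ^ 2) ^ 2 ^ j = z ^ 2 ^ j + (s * y ^ 2) ^ 2 ^ j := fun j => by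
    induction j with
    | zero => simp
    | succ j ih =>
      rw [pow_succ 2 j, pow_mul, ih, (c3.pow_pow _ _).add_sq, t2, ← pow_mul, ← pow_mul]
      simp
  have ιp : ∀ i v, (z ^ i) (ι v) = ι ((z₀ ^ i) v) := fun i => by
    induction i with
    | zero => simp
    | succ i ih => intro v; rw [pow_succ, pow_succ, End.mul_apply, hι, ih, End.mul_apply]
  have cp : ∀ i v, c ((z ^ i) v) = (z₀ ^ i) (c v) := fun i => by
    induction i with
    | zero => simp
    | succ i ih => intro v; rw [pow_succ', pow_succ', End.mul_apply, hcz, ih, End.mul_apply]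
  have πt : ∀ v, π ((s * y ^ 2) v) = 0 := fun v => by
    rw [(c1.pow_right 2).eq, sq, mul_assoc, End.mul_apply, hπy]
  have πp : ∀ i v, π (((z + s * y ^ 2) ^ i) v) = (z₀ ^ i) (π v) := fun i => by
    induction i with
    | zero => simp
    | succ i ih =>
      intro v
      rw [pow_succ' _ i, pow_succ' _ i, End.mul_apply, LinearMap.add_apply, map_add, hπ, πt,
        add_zero, ih, End.mul_apply]
  have H : 1 ≤ 2 ^ a := Nat.one_le_two_pow
  have n2 : 2 ^ (a + 1) = 2 * 2 ^ a := pow_succ' 2 a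
  refine ⟨hz, fun v hv => ?_⟩
  obtain ⟨u, hu⟩ := h.2 ((y ^ (2 ^ (a + 1) - 2)) (ι v)) (by
    rw [LinearMap.add_apply, ← End.mul_apply z, (hc.pow_right _).eq, End.mul_apply, hι, hv,
      map_zero, map_zero, zero_add, End.mul_apply, pow_app,
      show 2 + (2 ^ (a + 1) - 2) = 2 ^ (a + 1) by omega, hy, LinearMap.zero_apply, map_zero])
  rw [show 2 ^ (a + 1) - 1 = 2 ^ a + (2 ^ a - 1) by omega, ← pow_app, c5, c4, add_zero] at hu
  obtain ⟨v₁, hv₁⟩ : ∃ v₁, (z₀ ^ 2 ^ a) v₁ = v := ⟨_, by rw [← cp, hu, hcι]⟩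
  have c6 : (z + s * y ^ 2) ^ 2 ^ a = z ^ 2 ^ a := by rw [c5, c4, add_zero]
  generalize s * y ^ 2 = t at *
  obtain ⟨x, hx⟩ := h.2 (((z + t) ^ (2 ^ a - 1)) (z (ι v₁))) (by
    rw [← End.mul_apply, ← pow_succ', Nat.sub_add_cancel H, c6, ← End.mul_apply, ← pow_succ,
      pow_succ', End.mul_apply, ιp, hv₁, hι, hv, map_zero])
  refine ⟨π x, ?_⟩
  rw [← πp, hx, πp, hπ, hπι, ← End.mul_apply, ← pow_succ, Nat.sub_add_cancel H, hv₁]

/-- the endomorphism of a quotient -/
def quo (z : End F N) (J : Submodule F N) (h : ∀ v ∈ J, z v ∈ J) : End F (N ⧸ J) :=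
  J.mapQ J z h

theorem quo_mk (z : End F N) (J : Submodule F N) (h : ∀ v ∈ J, z v ∈ J) (v : N) :
    quo z J h (J.mkQ v) = J.mkQ (z v) := rfl

theorem quo_pow (z : End F N) (J : Submodule F N) (h : ∀ v ∈ J, z v ∈ J) (i : ℕ) (v : N) :
    (quo z J h ^ i) (J.mkQ v) = J.mkQ ((z ^ i) v) := by
  induction i with
  | zero => rfl
  | succ i ih => rw [pow_succ', pow_succ', End.mul_apply, End.mul_apply, ih, quo_mk]

/-- the kernel of the socle element `P` is `J` (freeness in several variables) -/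
def Soc (P : End F N) (J : Submodule F N) : Prop := ∀ v, P v = 0 ↔ v ∈ J

/-- one more variable -/
theorem Soc.add {P z : End F N} {J : Submodule F N} {n : ℕ} (h : Soc P J) (hn : 1 ≤ n)
    (hJ : ∀ v ∈ J, z v ∈ J) (hz : FreeT (quo z J hJ) n) :
    Soc (P * z ^ (n - 1)) (J ⊔ LinearMap.range z) := by
  intro v
  rw [End.mul_apply, h, ← Submodule.Quotient.mk_eq_zero, ← Submodule.mkQ_apply, ← quo_pow _ _ hJ,
    Submodule.mem_sup]
  constructor
  · intro hv
    obtain ⟨u, hu⟩ := hz.soc hn _ hv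
    obtain ⟨u, rfl⟩ := J.mkQ_surjective u
    exact ⟨v - z u, (Submodule.Quotient.eq J).1 hu.symm, z u, ⟨u, rfl⟩, sub_add_cancel _ _⟩
  · rintro ⟨a, ha, _, ⟨u, rfl⟩, rfl⟩
    rw [map_add, show J.mkQ a = 0 from (Submodule.Quotient.mk_eq_zero J).2 ha, zero_add,
      ← quo_mk z J hJ, ← End.mul_apply, ← pow_succ, Nat.sub_add_cancel hn, hz.1,
      LinearMap.zero_apply]

/-- one variable less -/
theorem Soc.drop {P w : End F N} {J : Submodule F N} {p : ℕ} (hw : w ^ p = 0)
    (hJ : ∀ v ∈ J, w v ∈ J) (hP : ∀ v ∈ J, P v = 0)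
    (h : Soc (P * w ^ (p - 1)) (J ⊔ LinearMap.range w)) (hc : Commute P w) :
    Soc P J ∧ FreeT (quo w J hJ) p := by
  have hJ' : ∀ i, ∀ v ∈ J, (w ^ i) v ∈ J := fun i v hv => by
    rw [← Submodule.Quotient.mk_eq_zero, ← Submodule.mkQ_apply, ← quo_pow _ _ hJ,
      show J.mkQ v = 0 from (Submodule.Quotient.mk_eq_zero J).2 hv, map_zero]
  have s : Soc P J := fun v => ⟨fun hv => by
    have key : ∀ i ≤ p, ∃ u, v - (w ^ i) u ∈ J := by
      intro i
      induction i with
      | zero => exact fun _ => ⟨v, by simp⟩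
      | succ i ih =>
        intro hi
        obtain ⟨u, hu⟩ := ih (by omega)
        have a1 := hP _ hu
        rw [map_sub, hv, zero_sub, neg_eq_zero] at a1
        obtain ⟨a, ha, _, ⟨u', rfl⟩, rfl⟩ := Submodule.mem_sup.1 ((h u).1 (by
          rw [show p - 1 = p - 1 - i + i by omega, pow_add, ← mul_assoc, (hc.pow_right _).eq,
            End.mul_apply, End.mul_apply, a1, map_zero]))
        refine ⟨u', ?_⟩
        have := J.add_mem hu (hJ' i a ha)
        rwa [map_add, ← End.mul_apply, ← pow_succ, ← sub_sub, sub_add_eq_add_sub, sub_add_cancel]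
          at this
    simpa [hw] using key p le_rfl, hP v⟩
  refine ⟨s, freeT_of_soc ?_ fun v hv => ?_⟩
  · refine LinearMap.ext fun v => ?_
    obtain ⟨v, rfl⟩ := J.mkQ_surjective v
    rw [quo_pow, hw, LinearMap.zero_apply, map_zero, LinearMap.zero_apply]
  · obtain ⟨v, rfl⟩ := J.mkQ_surjective v
    rw [quo_pow, Submodule.mkQ_apply, Submodule.Quotient.mk_eq_zero, ← s, ← End.mul_apply, h] at hv
    obtain ⟨a, ha, _, ⟨u, rfl⟩, rfl⟩ := Submodule.mem_sup.1 hv
    exact ⟨J.mkQ u, by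
      rw [map_add, show J.mkQ a = 0 from (Submodule.Quotient.mk_eq_zero J).2 ha, zero_add, quo_mk]⟩

/-- Lemma U in the presence of other variables -/
theorem Soc.root {P z : End F N} {J : Submodule F N} {k p : ℕ} (hk : 1 ≤ k) (hp : 2 ≤ p)
    (hz : (z ^ k) ^ p = 0) (hJ : ∀ v ∈ J, z v ∈ J) (hP : ∀ v ∈ J, P v = 0) (hc : Commute P z)
    (h : Soc (P * (z ^ k) ^ (p - 1)) (J ⊔ LinearMap.range (z ^ k))) :
    Soc (P * z ^ (k * p - 1)) (J ⊔ LinearMap.range z) := by
  have hJ' : ∀ v ∈ J, (z ^ k) v ∈ J := fun v hv => by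
    rw [← Submodule.Quotient.mk_eq_zero, ← Submodule.mkQ_apply, ← quo_pow _ _ hJ,
      show J.mkQ v = 0 from (Submodule.Quotient.mk_eq_zero J).2 hv, map_zero]
  obtain ⟨h1, h2⟩ := Soc.drop hz hJ' hP h (hc.pow_right k)
  have e : quo (z ^ k) J hJ' = quo z J hJ ^ k := LinearMap.ext fun v => by
    obtain ⟨v, rfl⟩ := J.mkQ_surjective v
    rw [quo_pow, quo_mk]
  rw [e] at h2
  exact h1.add (Nat.mul_pos hk (by omega)) hJ (h2.root hk hp)

/-- the length of a free module -/
theorem FreeT.length {z : End F N} {n : ℕ} (h : FreeT z n) :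
    Module.length F N = n * Module.length F (N ⧸ LinearMap.range z) := by
  have key : ∀ i ≤ n, Module.length F (N ⧸ LinearMap.range (z ^ i)) =
      i * Module.length F (N ⧸ LinearMap.range z) := by
    intro i
    induction i with
    | zero =>
      intro _
      have : Subsingleton (N ⧸ LinearMap.range (z ^ 0)) :=
        Submodule.Quotient.subsingleton_iff.2 (by rw [pow_zero]; exact LinearMap.range_id)
      simp
    | succ i ih =>
      intro hi
      have le : LinearMap.range (z ^ (i + 1)) ≤ LinearMap.range (z ^ i) := by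
        rw [pow_succ]
        exact LinearMap.range_comp_le_range _ _
      rw [Module.length_eq_add_of_exact
        ((LinearMap.range z).mapQ (LinearMap.range (z ^ (i + 1))) (z ^ i) (by
          rintro _ ⟨u, rfl⟩
          exact ⟨u, by rw [pow_succ, End.mul_apply]⟩))
        (Submodule.factor le) ?_ (Submodule.factor_surjective le) ?_, ih (by omega), Nat.cast_succ,
        add_mul, one_mul, add_comm]
      · rw [injective_iff_map_eq_zero]
        intro v hv
        obtain ⟨v, rfl⟩ := (LinearMap.range z).mkQ_surjective v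
        obtain ⟨u, hu⟩ := (Submodule.Quotient.mk_eq_zero _).1 hv
        obtain ⟨u', hu'⟩ := h.ker_pow i (by omega) (v - z u) (by
          rw [map_sub, ← hu, pow_succ, End.mul_apply, sub_self])
        refine (Submodule.Quotient.mk_eq_zero _).2 ⟨u + (z ^ (n - (i + 1))) u', ?_⟩
        rw [map_add, ← End.mul_apply z (z ^ _), ← pow_succ', show n - (i + 1) + 1 = n - i by omega,
          hu', add_sub_cancel]
      · intro v
        obtain ⟨v, rfl⟩ := (LinearMap.range (z ^ (i + 1))).mkQ_surjective v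
        constructor
        · intro hv
          obtain ⟨u, rfl⟩ := (Submodule.Quotient.mk_eq_zero _).1 hv
          exact ⟨Submodule.mkQ _ u, rfl⟩
        · rintro ⟨u, hu⟩
          obtain ⟨u, rfl⟩ := (LinearMap.range z).mkQ_surjective u
          rw [← hu]
          exact (Submodule.Quotient.mk_eq_zero _).2 ⟨u, rfl⟩
  rw [← key n le_rfl]
  exact ((Submodule.quotEquivOfEqBot _ (by rw [h.1, LinearMap.range_zero])).length_eq).symm

end Vale.Agent.P022D.LU
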